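import Vale.Agent.P017.R3.Defs

/-!
# P017, R3-B4: the random matrix model

`stmtRM : StmtLA1 → StmtLA2 → StmtLA3 → StmtRM`.

* `prob_ge`: the last `k` steps: the function `f k c = Q(k)² / Q(k - c)` (probability that the
  corank goes from `c` to `0`) satisfies the recursion of `StmtLA1`; matrices with a vector in both
  kernels are discarded, the loss being controlled by `StmtLA3`;
* `prob_app`: the first steps, in which `2^ck` and `sp` become small on average.
-/

open Finset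

namespace Vale.Agent.P017.R3.H706

open Vale.Agent.P017.R3

/-! ### The products -/

/-- `∏_{i ≤ k} (1 - 2^{-i})` -/
noncomputable def Q (k : ℕ) : ℝ := ∏ i ∈ range k, (1 - (1 / 2 : ℝ) ^ (i + 1))

lemma Q_zero : Q 0 = 1 := by simp [Q]

lemma Q_succ (k : ℕ) : Q (k + 1) = Q k * (1 - (1 / 2 : ℝ) ^ (k + 1)) := by
  unfold Q
  rw [prod_range_succ]

lemma half_lt (k : ℕ) : (1 / 2 : ℝ) ^ (k + 1) ≤ 1 / 2 := by
  rw [pow_succ]
  have : (1 / 2 : ℝ) ^ k ≤ 1 := pow_le_one₀ (by norm_num) (by norm_num)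
  linarith

lemma half_pos (k : ℕ) : (0 : ℝ) < (1 / 2 : ℝ) ^ k := by positivity

lemma Q_pos (k : ℕ) : 0 < Q k := by
  unfold Q
  apply prod_pos
  intro i _
  have := half_lt i
  linarith

lemma Q_succ_le (k : ℕ) : Q (k + 1) ≤ Q k := by
  rw [Q_succ]
  have h1 := Q_pos k
  have h2 := half_pos (k + 1)
  nlinarith

lemma Q_anti : Antitone Q := antitone_nat_of_succ_le Q_succ_le

lemma Q_le_one (k : ℕ) : Q k ≤ 1 := by
  have := Q_anti (Nat.zero_le k)
  rwa [Q_zero] at this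

lemma Q_tendsto : Filter.Tendsto Q Filter.atTop (nhds eta) := by
  unfold eta
  exact tendsto_atTop_ciInf Q_anti ⟨0, by rintro x ⟨k, rfl⟩; exact (Q_pos k).le⟩

/-- probability that `k` steps from corank `c` lead to an invertible matrix -/
noncomputable def f (k c : ℕ) : ℝ := if c ≤ k then Q k ^ 2 / Q (k - c) else 0

lemma f_nonneg (k c : ℕ) : 0 ≤ f k c := by
  unfold f
  split_ifs
  · exact div_nonneg (sq_nonneg _) (Q_pos _).le
  · exact le_refl _

lemma f_le_one (k c : ℕ) : f k c ≤ 1 := by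
  unfold f
  split_ifs
  · rw [div_le_one (Q_pos _)]
    have h1 := Q_anti (Nat.sub_le k c)
    have h2 := Q_le_one k
    have h3 := Q_pos k
    nlinarith
  · norm_num

lemma f_succ (k c : ℕ) : f (k + 1) c = (1 - (1 / 2 : ℝ) ^ c) ^ 2 * f k (c - 1) +
      (1 - (1 - (1 / 2 : ℝ) ^ c) ^ 2 - (1 / 2 : ℝ) ^ (2 * c + 1)) * f k c +
      (1 / 2 : ℝ) ^ (2 * c + 1) * f k (c + 1) := by
  rcases Nat.lt_trichotomy c k with h | h | h
  · -- c + 1 ≤ k
    obtain ⟨j, rfl⟩ := Nat.exists_eq_add_of_lt h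
    have e1 : c + j + 1 + 1 - c = j + 2 := by omega
    have e2 : c + j + 1 - c = j + 1 := by omega
    have e3 : c + j + 1 - (c + 1) = j := by omega
    have hq0 := (Q_pos j).ne'
    have hq1 := (Q_pos (j + 1)).ne'
    have hq2 := (Q_pos (j + 2)).ne'
    have a1 : (1 - (1 / 2 : ℝ) ^ (j + 1)) ≠ 0 := by
      have := half_lt j; linarith
    have a2 : (1 - (1 / 2 : ℝ) ^ (j + 1 + 1)) ≠ 0 := by
      have := half_lt (j + 1); linarith
    have F1 : f (c + j + 1 + 1) c = Q (c + j + 1) ^ 2 * (1 - (1 / 2 : ℝ) ^ (c + j + 1 + 1)) ^ 2 /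
        (Q j * (1 - (1 / 2 : ℝ) ^ (j + 1)) * (1 - (1 / 2 : ℝ) ^ (j + 1 + 1))) := by
      unfold f
      rw [if_pos (by omega), e1, Q_succ (c + j + 1), Q_succ (j + 1), Q_succ j]
      ring
    have F2 : f (c + j + 1) c = Q (c + j + 1) ^ 2 / (Q j * (1 - (1 / 2 : ℝ) ^ (j + 1))) := by
      unfold f
      rw [if_pos (by omega), e2, Q_succ j]
    have F3 : f (c + j + 1) (c + 1) = Q (c + j + 1) ^ 2 / Q j := by
      unfold f
      rw [if_pos (by omega), e3]
    rcases Nat.eq_zero_or_pos c with hc | hc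
    · subst hc
      have hz : f (0 + j + 1) (0 - 1) = f (0 + j + 1) 0 := rfl
      rw [hz, F1, F2, F3]
      have hy0 : (1 / 2 : ℝ) ^ (0 + j + 1 + 1) = (1 / 2 : ℝ) ^ j / 4 := by
        rw [pow_succ, pow_succ, zero_add]; ring
      have hy1 : (1 / 2 : ℝ) ^ (j + 1) = (1 / 2 : ℝ) ^ j / 2 := by rw [pow_succ]; ring
      have hy2 : (1 / 2 : ℝ) ^ (j + 1 + 1) = (1 / 2 : ℝ) ^ j / 4 := by
        rw [pow_succ, pow_succ]; ring
      rw [hy1] at a1
      rw [hy2] at a2
      rw [hy0, hy1, hy2]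
      generalize (1 / 2 : ℝ) ^ j = y at *
      have b1 : 2 - y ≠ 0 := fun h => a1 (by linarith)
      have b2 : 4 - y ≠ 0 := fun h => a2 (by linarith)
      norm_num
      field_simp
      ring
    · have e4 : c + j + 1 - (c - 1) = j + 2 := by omega
      have F4 : f (c + j + 1) (c - 1) = Q (c + j + 1) ^ 2 /
          (Q j * (1 - (1 / 2 : ℝ) ^ (j + 1)) * (1 - (1 / 2 : ℝ) ^ (j + 1 + 1))) := by
        unfold f
        rw [if_pos (by omega), e4, Q_succ (j + 1), Q_succ j]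
      rw [F1, F2, F3, F4]
      have hx : (1 / 2 : ℝ) ^ (2 * c + 1) = ((1 / 2 : ℝ) ^ c) ^ 2 / 2 := by
        rw [pow_succ, mul_comm 2 c, pow_mul]; ring
      have hxy : (1 / 2 : ℝ) ^ (c + j + 1 + 1) = (1 / 2 : ℝ) ^ c * (1 / 2 : ℝ) ^ j / 4 := by
        rw [pow_succ, pow_succ, pow_add]; ring
      have hy1 : (1 / 2 : ℝ) ^ (j + 1) = (1 / 2 : ℝ) ^ j / 2 := by rw [pow_succ]; ring
      have hy2 : (1 / 2 : ℝ) ^ (j + 1 + 1) = (1 / 2 : ℝ) ^ j / 4 := by
        rw [pow_succ, pow_succ]; ring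
      rw [hy1] at a1
      rw [hy2] at a2
      rw [hx, hxy, hy1, hy2]
      generalize (1 / 2 : ℝ) ^ c = x at *
      generalize (1 / 2 : ℝ) ^ j = y at *
      have b1 : 2 - y ≠ 0 := fun h => a1 (by linarith)
      have b2 : 4 - y ≠ 0 := fun h => a2 (by linarith)
      field_simp
      ring
  · subst h
    -- c = k
    have e1 : c + 1 - c = 1 := by omega
    have hQ1 : Q 1 = 1 / 2 := by
      unfold Q
      rw [prod_range_one]
      norm_num
    have F1 : f (c + 1) c = 2 * (Q c ^ 2 * (1 - (1 / 2 : ℝ) ^ (c + 1)) ^ 2) := by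
      unfold f
      rw [if_pos (by omega), e1, hQ1, Q_succ]
      ring
    have F2 : f c c = Q c ^ 2 := by
      unfold f
      rw [if_pos (le_refl _), Nat.sub_self, Q_zero, div_one]
    have F3 : f c (c + 1) = 0 := by
      unfold f
      rw [if_neg (by omega)]
    rcases Nat.eq_zero_or_pos c with hc | hc
    · subst hc
      rw [F1, F3]
      have hz : (0 : ℕ) - 1 = 0 := rfl
      rw [hz, F2, Q_zero]
      norm_num
    · have e4 : c - (c - 1) = 1 := by omega
      have F4 : f c (c - 1) = 2 * Q c ^ 2 := by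
        unfold f
        rw [if_pos (by omega), e4, hQ1]
        ring
      rw [F1, F2, F3, F4]
      have hx : (1 / 2 : ℝ) ^ (2 * c + 1) = ((1 / 2 : ℝ) ^ c) ^ 2 / 2 := by
        rw [pow_succ, mul_comm 2 c, pow_mul]; ring
      rw [hx, pow_succ]
      ring
  · rcases Nat.lt_or_ge (k + 1) c with h2 | h2
    · have F1 : f (k + 1) c = 0 := by unfold f; rw [if_neg (by omega)]
      have F2 : f k c = 0 := by unfold f; rw [if_neg (by omega)]
      have F3 : f k (c + 1) = 0 := by unfold f; rw [if_neg (by omega)]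
      have F4 : f k (c - 1) = 0 := by unfold f; rw [if_neg (by omega)]
      rw [F1, F2, F3, F4]
      ring
    · have hc : c = k + 1 := by omega
      subst hc
      have F1 : f (k + 1) (k + 1) = Q k ^ 2 * (1 - (1 / 2 : ℝ) ^ (k + 1)) ^ 2 := by
        unfold f
        rw [if_pos (le_refl _), Nat.sub_self, Q_zero, div_one, Q_succ]
        ring
      have F2 : f k (k + 1) = 0 := by unfold f; rw [if_neg (by omega)]
      have F3 : f k (k + 1 + 1) = 0 := by unfold f; rw [if_neg (by omega)]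
      have F4 : f k (k + 1 - 1) = Q k ^ 2 := by
        rw [Nat.add_sub_cancel]
        unfold f
        rw [if_pos (le_refl _), Nat.sub_self, Q_zero, div_one]
      rw [F1, F2, F3, F4]
      ring

lemma f_ge {k c C : ℕ} (hc : c ≤ C) (hC : C ≤ k) : Q k ^ 2 / Q (k - C) ≤ f k c := by
  unfold f
  rw [if_pos (hc.trans hC)]
  exact div_le_div_of_nonneg_left (sq_nonneg _) (Q_pos _) (Q_anti (by omega))

/-! ### Averages -/

section av

variable {V : Type} [Fintype V] [DecidableEq V]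

/-- average over the new row and the new corner -/
noncomputable def av (G : (V → ZMod 2) → ZMod 2 → ℝ) : ℝ :=
  (∑ φ : V → ZMod 2, ∑ w : ZMod 2, G φ w) / 2 ^ (Fintype.card V + 1)

lemma av_mono {G H : (V → ZMod 2) → ZMod 2 → ℝ} (h : ∀ φ w, G φ w ≤ H φ w) : av G ≤ av H := by
  unfold av
  apply div_le_div_of_nonneg_right _ (by positivity)
  exact sum_le_sum fun φ _ => sum_le_sum fun w _ => h φ w

lemma av_const (c : ℝ) : av (fun (_ : V → ZMod 2) _ => c) = c := by
  unfold av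
  rw [sum_const, sum_const, card_univ, card_univ, Fintype.card_fun, ZMod.card]
  simp only [nsmul_eq_mul]
  push_cast
  rw [pow_succ]
  field_simp

lemma av_add (G H : (V → ZMod 2) → ZMod 2 → ℝ) : av (fun φ w => G φ w + H φ w) = av G + av H := by
  unfold av
  simp only [sum_add_distrib]
  rw [add_div]

lemma av_smul (c : ℝ) (G : (V → ZMod 2) → ZMod 2 → ℝ) : av (fun φ w => c * G φ w) = c * av G := by
  unfold av
  simp only [← mul_sum]
  rw [mul_div_assoc]

/-- number of ones -/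
def nn (μ : V → ZMod 2) : ℕ := (univ.filter fun a => μ a = 1).card

omit [DecidableEq V] in
lemma nn_extv (μ : V → ZMod 2) (e : ZMod 2) : nn (extv μ e) = nn μ + if e = 1 then 1 else 0 := by
  unfold nn
  rw [card_filter, card_filter, Fintype.sum_option]
  simp only [extv]
  rw [add_comm]
  rfl

omit [Fintype V] [DecidableEq V] in
lemma rec_ext {M : Matrix V V (ZMod 2)} {μ : V → ZMod 2} (h : Rec M μ) (φ : V → ZMod 2)
    (e w : ZMod 2) : Rec (ext M φ (φ + e • μ) w) (extv μ e) := by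
  have h2 : ∀ x : ZMod 2, x + x = 0 := by decide
  intro a b hab
  match a, b, hab with
  | some q, some q', hab => exact h q q' (fun h' => hab (by rw [h']))
  | some q, none, _ =>
    show φ q + (φ + e • μ) q = μ q * e
    rw [Pi.add_apply, Pi.smul_apply, smul_eq_mul, ← add_assoc, h2, zero_add, mul_comm]
  | none, some q', _ =>
    show (φ + e • μ) q' + φ q' = e * μ q'
    rw [Pi.add_apply, Pi.smul_apply, smul_eq_mul, add_right_comm, h2, zero_add]
  | none, none, hab => exact absurd rfl hab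

lemma prob_cons (e : ZMod 2) (ε : List (ZMod 2)) (M : Matrix V V (ZMod 2)) (μ : V → ZMod 2) :
    prob (e :: ε) V M μ =
      av (fun φ w => prob ε (Option V) (ext M φ (φ + e • μ) w) (extv μ e)) := rfl

lemma av_ck (h2 : StmtLA2) (M : Matrix V V (ZMod 2)) (ν : V → ZMod 2) :
    av (fun φ w => (2 : ℝ) ^ ck (ext M φ (φ + ν) w)) ≤ (2 : ℝ) ^ ck M / 2 + 1 := by
  unfold av
  rw [div_le_iff₀ (by positivity)]
  have := h2 V M ν
  linarith

lemma av_sp (h3 : StmtLA3) {M : Matrix V V (ZMod 2)} {μ : V → ZMod 2} (h : Rec M μ) (e : ZMod 2) :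
    av (fun φ w => (sp (ext M φ (φ + e • μ) w) : ℝ)) ≤ (sp M : ℝ) / 2 + (1 / 2 : ℝ) ^ nn μ := by
  unfold av nn
  rw [div_le_iff₀ (by positivity)]
  have := h3 V M μ e h
  linarith

lemma av_f (h1 : StmtLA1) {M : Matrix V V (ZMod 2)} (ν : V → ZMod 2) (hs : sp M = 0) (k : ℕ) :
    av (fun φ w => f k (ck (ext M φ (φ + ν) w))) = f (k + 1) (ck M) := by
  unfold av
  rw [h1 V M ν hs (f k), f_succ]
  field_simp

end av

lemma prob_nonneg : ∀ (ε : List (ZMod 2)) (V : Type) [Fintype V] [DecidableEq V]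
    (M : Matrix V V (ZMod 2)) (μ : V → ZMod 2), 0 ≤ prob ε V M μ
  | [], V, _, _, M, μ => by
    unfold prob
    split_ifs <;> norm_num
  | e :: ε, V, _, _, M, μ => by
    rw [prob_cons]
    have := av_mono (V := V) (G := fun _ _ => 0)
      (H := fun φ w => prob ε (Option V) (ext M φ (φ + e • μ) w) (extv μ e))
      (fun φ w => prob_nonneg ε (Option V) _ _)
    rwa [av_const] at this

/-- the last steps -/
lemma prob_ge (h1 : StmtLA1) (h3 : StmtLA3) : ∀ (ε : List (ZMod 2)) (V : Type) [Fintype V]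
    [DecidableEq V] (M : Matrix V V (ZMod 2)) (μ : V → ZMod 2), Rec M μ →
    f ε.length (ck M) - 2 * sp M - 2 * ε.length * (1 / 2 : ℝ) ^ nn μ ≤ prob ε V M μ
  | [], V, _, _, M, μ, h => by
    unfold prob f
    have hs : (0 : ℝ) ≤ sp M := Nat.cast_nonneg _
    by_cases hc : ck M = 0
    · rw [if_pos hc, hc]
      simp only [List.length_nil, le_refl, if_true, Nat.sub_self, Q_zero]
      simp only [Nat.cast_zero, mul_zero, zero_mul]
      linarith
    · rw [if_neg hc, if_neg (by simp only [List.length_nil]; omega)]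
      simp only [List.length_nil, Nat.cast_zero, mul_zero, zero_mul]
      linarith
  | e :: ε, V, _, _, M, μ, h => by
    rcases Nat.eq_zero_or_pos (sp M) with hs | hs
    · rw [prob_cons]
      have hm := av_mono (V := V)
        (G := fun φ w => f ε.length (ck (ext M φ (φ + e • μ) w)) +
          (-2 * (sp (ext M φ (φ + e • μ) w) : ℝ) +
            -(2 * ε.length * (1 / 2 : ℝ) ^ nn (extv μ e))))
        (H := fun φ w => prob ε (Option V) (ext M φ (φ + e • μ) w) (extv μ e))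
        (fun φ w => by
          have := prob_ge h1 h3 ε (Option V) _ _ (rec_ext h φ e w)
          linarith)
      rw [av_add, av_add, av_smul, av_const, av_f h1 _ hs] at hm
      have hsp := av_sp h3 h e
      rw [hs] at hsp ⊢
      have hn : (1 / 2 : ℝ) ^ nn (extv μ e) ≤ (1 / 2 : ℝ) ^ nn μ := by
        apply pow_le_pow_of_le_one (by norm_num) (by norm_num)
        rw [nn_extv]
        omega
      have hl : (0 : ℝ) ≤ 2 * ε.length := by positivity
      have := mul_le_mul_of_nonneg_left hn hl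
      simp only [List.length_cons]
      push_cast at hsp ⊢
      linarith
    · have hf := f_le_one (e :: ε).length (ck M)
      have hp := prob_nonneg (e :: ε) V M μ
      have hs' : (1 : ℝ) ≤ sp M := by exact_mod_cast hs
      have : (0 : ℝ) ≤ 2 * (e :: ε).length * (1 / 2 : ℝ) ^ nn μ := by positivity
      linarith

/-- contribution of the new vectors in both kernels -/
noncomputable def D : List (ZMod 2) → ℕ → ℝ
  | [], _ => 0
  | e :: ε, m => (1 / 2 : ℝ) ^ m / 2 ^ ε.length + D ε (m + if e = 1 then 1 else 0)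

lemma D_le : ∀ (ε : List (ZMod 2)) (m : ℕ),
    D ε m ≤ (4 - 4 * (2 / 3 : ℝ) ^ ε.length) * (3 / 4 : ℝ) ^ (ε.count 1 + m)
  | [], m => by simp [D]
  | e :: ε, m => by
    have ih := D_le ε (m + if e = 1 then 1 else 0)
    have hc : ε.count 1 + (m + if e = 1 then 1 else 0) = (e :: ε).count 1 + m := by
      rw [List.count_cons]
      by_cases he : e = 1
      · simp [he]; omega
      · simp [he]
    rw [hc] at ih
    have hle : (e :: ε).count 1 ≤ ε.length + 1 := by
      have := List.count_le_length (a := (1 : ZMod 2)) (l := e :: ε)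
      simpa using this
    have h1 : (1 / 2 : ℝ) ^ m / 2 ^ ε.length ≤
        (4 / 3) * (2 / 3 : ℝ) ^ ε.length * (3 / 4 : ℝ) ^ ((e :: ε).count 1 + m) := by
      have h2 : (3 / 4 : ℝ) ^ (ε.length + 1 + m) ≤ (3 / 4 : ℝ) ^ ((e :: ε).count 1 + m) :=
        pow_le_pow_of_le_one (by norm_num) (by norm_num) (by omega)
      have h3 : (4 / 3) * (2 / 3 : ℝ) ^ ε.length * (3 / 4 : ℝ) ^ (ε.length + 1 + m) =
          (1 / 2 : ℝ) ^ ε.length * (3 / 4 : ℝ) ^ m := by
        rw [pow_add, pow_succ]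
        have : (1 / 2 : ℝ) ^ ε.length = (2 / 3 : ℝ) ^ ε.length * (3 / 4 : ℝ) ^ ε.length := by
          rw [← mul_pow]; norm_num
        rw [this]
        ring
      have h4 : (1 / 2 : ℝ) ^ m ≤ (3 / 4 : ℝ) ^ m := pow_le_pow_left₀ (by norm_num) (by norm_num) m
      have h5 : (1 / 2 : ℝ) ^ m / 2 ^ ε.length = (1 / 2 : ℝ) ^ ε.length * (1 / 2 : ℝ) ^ m := by
        rw [div_eq_mul_inv, mul_comm, show ((1 / 2 : ℝ) ^ ε.length) = ((2 : ℝ) ^ ε.length)⁻¹ by
          rw [one_div, inv_pow]]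
      rw [h5]
      calc (1 / 2 : ℝ) ^ ε.length * (1 / 2 : ℝ) ^ m ≤ (1 / 2 : ℝ) ^ ε.length * (3 / 4 : ℝ) ^ m :=
            mul_le_mul_of_nonneg_left h4 (by positivity)
        _ = (4 / 3) * (2 / 3 : ℝ) ^ ε.length * (3 / 4 : ℝ) ^ (ε.length + 1 + m) := h3.symm
        _ ≤ _ := mul_le_mul_of_nonneg_left h2 (by positivity)
    have h6 : (2 / 3 : ℝ) ^ (e :: ε).length = (2 / 3 : ℝ) ^ ε.length * (2 / 3) := by
      rw [List.length_cons, pow_succ]
    rw [h6]
    show (1 / 2 : ℝ) ^ m / 2 ^ ε.length + D ε (m + if e = 1 then 1 else 0) ≤ _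
    linarith

/-- all steps -/
lemma prob_app (h2 : StmtLA2) (h3 : StmtLA3) (ε₂ : List (ZMod 2)) (a A₁ A₂ A₃ : ℝ) (hA₁ : 0 ≤ A₁)
    (hA₂ : 0 ≤ A₂)
    (H : ∀ (V : Type) [Fintype V] [DecidableEq V] (M : Matrix V V (ZMod 2)) (μ : V → ZMod 2),
      Rec M μ → a - A₁ * (2 : ℝ) ^ ck M - A₂ * sp M - A₃ * (1 / 2 : ℝ) ^ nn μ ≤ prob ε₂ V M μ) :
    ∀ (ε : List (ZMod 2)) (V : Type) [Fintype V]
    [DecidableEq V] (M : Matrix V V (ZMod 2)) (μ : V → ZMod 2), Rec M μ →
    a - A₁ * (2 + ((2 : ℝ) ^ ck M - 2) / 2 ^ ε.length) -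
      A₂ * ((sp M : ℝ) / 2 ^ ε.length + D ε (nn μ)) - A₃ * (1 / 2 : ℝ) ^ (ε.count 1 + nn μ) ≤
      prob (ε ++ ε₂) V M μ
  | [], V, _, _, M, μ, h => by
    have := H V M μ h
    simp only [List.length_nil, pow_zero, div_one, D, add_zero, List.count_nil, zero_add,
      List.nil_append, add_sub_cancel]
    exact this
  | e :: ε, V, _, _, M, μ, h => by
    have hc : ε.count 1 + (nn μ + if e = 1 then 1 else 0) = (e :: ε).count 1 + nn μ := by
      rw [List.count_cons]
      by_cases he : e = 1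
      · simp [he]; omega
      · simp [he]
    rw [List.cons_append, prob_cons]
    have hm := av_mono (V := V)
      (G := fun φ w => -(A₁ / 2 ^ ε.length) * (2 : ℝ) ^ ck (ext M φ (φ + e • μ) w) +
        (-(A₂ / 2 ^ ε.length) * (sp (ext M φ (φ + e • μ) w) : ℝ) +
          (a - A₁ * (2 - 2 / 2 ^ ε.length) - A₂ * D ε (nn (extv μ e)) -
            A₃ * (1 / 2 : ℝ) ^ (ε.count 1 + nn (extv μ e)))))
      (H := fun φ w => prob (ε ++ ε₂) (Option V) (ext M φ (φ + e • μ) w) (extv μ e))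
      (fun φ w => by
        have := prob_app h2 h3 ε₂ a A₁ A₂ A₃ hA₁ hA₂ H ε (Option V) _ _ (rec_ext h φ e w)
        refine le_trans (le_of_eq ?_) this
        ring)
    rw [av_add, av_add, av_smul, av_smul, av_const, nn_extv, hc] at hm
    have hck := av_ck h2 M (e • μ)
    have hsp := av_sp h3 h e
    have g1 : 0 ≤ A₁ / 2 ^ ε.length := by positivity
    have g2 : 0 ≤ A₂ / 2 ^ ε.length := by positivity
    have k1 := mul_le_mul_of_nonneg_left hck g1
    have k2 := mul_le_mul_of_nonneg_left hsp g2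
    have hD : D (e :: ε) (nn μ) = (1 / 2 : ℝ) ^ nn μ / 2 ^ ε.length +
      D ε (nn μ + if e = 1 then 1 else 0) := rfl
    rw [hD, List.length_cons, pow_succ]
    have t1 : A₁ * (2 + ((2 : ℝ) ^ ck M - 2) / (2 ^ ε.length * 2)) =
        A₁ / 2 ^ ε.length * ((2 : ℝ) ^ ck M / 2 + 1) + A₁ * (2 - 2 / 2 ^ ε.length) := by
      field_simp
      ring
    have t2 : A₂ * ((sp M : ℝ) / (2 ^ ε.length * 2) + ((1 / 2 : ℝ) ^ nn μ / 2 ^ ε.length +
        D ε (nn μ + if e = 1 then 1 else 0))) =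
        A₂ / 2 ^ ε.length * ((sp M : ℝ) / 2 + (1 / 2 : ℝ) ^ nn μ) +
          A₂ * D ε (nn μ + if e = 1 then 1 else 0) := by
      field_simp
      ring
    rw [t1, t2]
    linarith

lemma sp_le {V : Type} [Fintype V] [DecidableEq V] (M : Matrix V V (ZMod 2)) :
    (sp M : ℝ) ≤ (2 : ℝ) ^ ck M := by
  have h : sp M ≤ 2 ^ ck M := by
    have hcard : Nat.card (LinearMap.ker (Matrix.mulVecLin M)) = 2 ^ ck M := by
      unfold ck
      rw [Module.natCard_eq_pow_finrank (K := ZMod 2), Nat.card_zmod]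
    rw [← hcard]
    unfold sp
    rw [← Set.ncard_coe_finset]
    have e : Nat.card (LinearMap.ker (Matrix.mulVecLin M)) =
        (LinearMap.ker (Matrix.mulVecLin M) : Set (V → ZMod 2)).ncard := Nat.card_coe_set_eq _
    rw [e]
    apply Set.ncard_le_ncard _ (Set.toFinite _)
    intro x hx
    have := (mem_filter.1 (mem_coe.1 hx)).2.2.1
    rw [SetLike.mem_coe, LinearMap.mem_ker, Matrix.mulVecLin_apply]
    exact this
  exact_mod_cast h

section avg

variable {V : Type} [Fintype V] [DecidableEq V]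

lemma avg_mono {G H : (V → ZMod 2) → ℝ} (h : ∀ u, G u ≤ H u) : avg G ≤ avg H := by
  unfold avg
  apply div_le_div_of_nonneg_right _ (by positivity)
  exact sum_le_sum fun u _ => h u

lemma avg_const (c : ℝ) : avg (fun (_ : V → ZMod 2) => c) = c := by
  unfold avg
  rw [sum_const, card_univ, Fintype.card_fun, ZMod.card]
  simp only [nsmul_eq_mul]
  push_cast
  field_simp

lemma avg_add (G H : (V → ZMod 2) → ℝ) : avg (fun u => G u + H u) = avg G + avg H := by
  unfold avg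
  simp only [sum_add_distrib]
  rw [add_div]

lemma avg_smul (c : ℝ) (G : (V → ZMod 2) → ℝ) : avg (fun u => c * G u) = c * avg G := by
  unfold avg
  simp only [← mul_sum]
  rw [mul_div_assoc]

omit [Fintype V] in
lemma rec_diag {A : Matrix V V (ZMod 2)} {μ : V → ZMod 2} (h : Rec A μ) (u : V → ZMod 2) :
    Rec (A + Matrix.diagonal u) μ := by
  intro a b hab
  have := h a b hab
  rw [Matrix.add_apply, Matrix.add_apply, Matrix.diagonal_apply_ne _ hab,
    Matrix.diagonal_apply_ne _ (Ne.symm hab), add_zero, add_zero]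
  exact this

end avg

lemma eta_le_one : eta ≤ 1 := le_of_tendsto' Q_tendsto Q_le_one

lemma Q_quot_tendsto (he : 0 < eta) (C : ℕ) :
    Filter.Tendsto (fun k => Q k ^ 2 / Q (k - C)) Filter.atTop (nhds eta) := by
  have h1 : Filter.Tendsto (fun k => Q (k - C)) Filter.atTop (nhds eta) :=
    Q_tendsto.comp (Filter.tendsto_sub_atTop_nat C)
  have h2 := (Q_tendsto.pow 2).div h1 he.ne'
  have h3 : eta ^ 2 / eta = eta := by field_simp
  rw [h3] at h2
  exact h2

theorem stmtRM (h1 : StmtLA1) (h2 : StmtLA2) (h3 : StmtLA3) : StmtRM := by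
  intro η B hη
  rcases le_or_gt η 0 with h0 | h0
  · refine ⟨0, 0, ?_⟩
    intro ε V _ _ A μ _ _ _
    have := avg_mono (V := V) (G := fun _ => 0)
      (H := fun u => prob ε V (A + Matrix.diagonal u) μ) (fun u => prob_nonneg ε V _ _)
    rw [avg_const] at this
    exact h0.trans this
  have he : 0 < eta := h0.trans hη
  set s := eta - η with hs
  have hspos : 0 < s := by rw [hs]; linarith
  obtain ⟨C, hC⟩ : ∃ n : ℕ, (1 / 2 : ℝ) ^ n < s / (4 * (2 + |B|)) :=
    exists_pow_lt_of_lt_one (by positivity) (by norm_num)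
  have hC' : (1 / 2 : ℝ) ^ C * (2 + |B|) ≤ s / 4 := by
    rw [lt_div_iff₀ (by positivity)] at hC
    linarith
  obtain ⟨k, hkC, hk⟩ : ∃ k : ℕ, C ≤ k ∧ (η + eta) / 2 ≤ Q k ^ 2 / Q (k - C) := by
    have hlt : (η + eta) / 2 < eta := by linarith
    have ev := ((Q_quot_tendsto he C).eventually (eventually_ge_nhds hlt)).and
      (Filter.eventually_ge_atTop C)
    obtain ⟨k, h, h'⟩ := ev.exists
    exact ⟨k, h', h⟩
  have ha1 : (η + eta) / 2 ≤ 1 := by
    have := eta_le_one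
    linarith
  obtain ⟨m, hm⟩ : ∃ n : ℕ, (3 / 4 : ℝ) ^ n < s / (4 * (2 * |B| + 8 + 2 * k)) :=
    exists_pow_lt_of_lt_one (by positivity) (by norm_num)
  have hm' : (3 / 4 : ℝ) ^ (m + 1) * (2 * |B| + 8 + 2 * k) ≤ s / 4 := by
    rw [lt_div_iff₀ (by positivity)] at hm
    have : (3 / 4 : ℝ) ^ (m + 1) ≤ (3 / 4 : ℝ) ^ m :=
      pow_le_pow_of_le_one (by norm_num) (by norm_num) (Nat.le_succ m)
    have h4 := mul_le_mul_of_nonneg_right this
      (show (0 : ℝ) ≤ 2 * |B| + 8 + 2 * k by positivity)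
    linarith
  refine ⟨m + 1, k, ?_⟩
  intro ε V _ _ A μ hrec hcount hB
  set ε₁ := ε.take (ε.length - k) with hε₁
  set ε₂ := ε.drop (ε.length - k) with hε₂
  have hsplit : ε₁ ++ ε₂ = ε := List.take_append_drop _ _
  have hlen1 : ε₁.count 1 ≤ ε₁.length := List.count_le_length
  have hlen1' : ε₁.length ≤ ε.length - k := List.length_take_le _ _
  have hlen2 : ε₂.length = k := by
    rw [hε₂, List.length_drop]
    omega
  have H : ∀ (V : Type) [Fintype V] [DecidableEq V] (M : Matrix V V (ZMod 2)) (μ : V → ZMod 2),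
      Rec M μ → (η + eta) / 2 - (1 / 2 : ℝ) ^ C * (2 : ℝ) ^ ck M - 2 * sp M -
        (2 * k) * (1 / 2 : ℝ) ^ nn μ ≤ prob ε₂ V M μ := by
    intro V _ _ M μ hM
    have := prob_ge h1 h3 ε₂ V M μ hM
    rw [hlen2] at this
    have hf : (η + eta) / 2 - (1 / 2 : ℝ) ^ C * (2 : ℝ) ^ ck M ≤ f k (ck M) := by
      rcases Nat.lt_or_ge C (ck M) with hc | hc
      · have g1 := f_nonneg k (ck M)
        have g2 : (1 : ℝ) ≤ (1 / 2 : ℝ) ^ C * (2 : ℝ) ^ ck M := by
          calc (1 : ℝ) = (1 / 2 : ℝ) ^ C * (2 : ℝ) ^ C := by rw [← mul_pow]; norm_num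
            _ ≤ (1 / 2 : ℝ) ^ C * (2 : ℝ) ^ ck M :=
              mul_le_mul_of_nonneg_left (pow_le_pow_right₀ (by norm_num) hc.le) (by positivity)
        linarith
      · have g1 := hk.trans (f_ge hc hkC)
        have g2 : (0 : ℝ) ≤ (1 / 2 : ℝ) ^ C * (2 : ℝ) ^ ck M := by positivity
        linarith
    linarith
  have key : ∀ u : V → ZMod 2,
      ((η + eta) / 2 - (1 / 2 : ℝ) ^ C * 2 - (8 + 2 * k) * (3 / 4 : ℝ) ^ (m + 1)) +
        (-((1 / 2 : ℝ) ^ C + 2 * (3 / 4 : ℝ) ^ (m + 1))) * (2 : ℝ) ^ ck (A + Matrix.diagonal u) ≤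
      prob ε V (A + Matrix.diagonal u) μ := by
    intro u
    have hp := prob_app h2 h3 ε₂ ((η + eta) / 2) ((1 / 2 : ℝ) ^ C) 2 (2 * k) (by positivity)
      (by norm_num) H ε₁ V (A + Matrix.diagonal u) μ (rec_diag hrec u)
    rw [hsplit] at hp
    have hD := D_le ε₁ (nn μ)
    have hsp := sp_le (A + Matrix.diagonal u)
    set K : ℝ := (2 : ℝ) ^ ck (A + Matrix.diagonal u) with hK
    have hKpos : 0 < K := by positivity
    have p1 : (3 / 4 : ℝ) ^ (ε₁.count 1 + nn μ) ≤ (3 / 4 : ℝ) ^ (m + 1) :=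
      pow_le_pow_of_le_one (by norm_num) (by norm_num) (by omega)
    have p2 : (1 / 2 : ℝ) ^ (ε₁.count 1 + nn μ) ≤ (3 / 4 : ℝ) ^ (m + 1) :=
      (pow_le_pow_left₀ (by norm_num) (by norm_num) _).trans p1
    have p3 : (1 : ℝ) / 2 ^ ε₁.length ≤ (3 / 4 : ℝ) ^ (m + 1) := by
      rw [← one_div_pow]
      calc (1 / 2 : ℝ) ^ ε₁.length ≤ (1 / 2 : ℝ) ^ (m + 1) :=
            pow_le_pow_of_le_one (by norm_num) (by norm_num) (by omega)
        _ ≤ _ := pow_le_pow_left₀ (by norm_num) (by norm_num) _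
    have p4 : (1 : ℝ) / 2 ^ ε₁.length ≤ 1 := by
      rw [← one_div_pow]
      exact pow_le_one₀ (by norm_num) (by norm_num)
    have p5 : (0 : ℝ) ≤ 1 / 2 ^ ε₁.length := by positivity
    have q1 : (K - 2) / 2 ^ ε₁.length ≤ K := by
      rw [div_eq_mul_one_div]
      nlinarith
    have q2 : (sp (A + Matrix.diagonal u) : ℝ) / 2 ^ ε₁.length ≤ K * (3 / 4 : ℝ) ^ (m + 1) := by
      rw [div_eq_mul_one_div]
      exact mul_le_mul hsp p3 p5 hKpos.le
    have q3 : D ε₁ (nn μ) ≤ 4 * (3 / 4 : ℝ) ^ (m + 1) := by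
      have r1 : (4 - 4 * (2 / 3 : ℝ) ^ ε₁.length) ≤ 4 := by
        have : (0 : ℝ) ≤ (2 / 3 : ℝ) ^ ε₁.length := by positivity
        linarith
      have r2 : (0 : ℝ) ≤ (3 / 4 : ℝ) ^ (ε₁.count 1 + nn μ) := by positivity
      calc D ε₁ (nn μ) ≤ _ := hD
        _ ≤ 4 * (3 / 4 : ℝ) ^ (ε₁.count 1 + nn μ) := mul_le_mul_of_nonneg_right r1 r2
        _ ≤ _ := by linarith
    have q4 : (2 * k : ℝ) * (1 / 2 : ℝ) ^ (ε₁.count 1 + nn μ) ≤ 2 * k * (3 / 4 : ℝ) ^ (m + 1) :=
      mul_le_mul_of_nonneg_left p2 (by positivity)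
    have q5 : (1 / 2 : ℝ) ^ C * (2 + (K - 2) / 2 ^ ε₁.length) ≤ (1 / 2 : ℝ) ^ C * (2 + K) :=
      mul_le_mul_of_nonneg_left (by linarith) (by positivity)
    linarith
  have hav := avg_mono key
  rw [avg_add, avg_const, avg_smul] at hav
  have hcoef : (0 : ℝ) ≤ (1 / 2 : ℝ) ^ C + 2 * (3 / 4 : ℝ) ^ (m + 1) := by positivity
  have hB' : avg (fun u : V → ZMod 2 => (2 : ℝ) ^ ck (A + Matrix.diagonal u)) ≤ |B| :=
    hB.trans (le_abs_self B)
  have := mul_le_mul_of_nonneg_left hB' hcoef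
  linarith

end Vale.Agent.P017.R3.H706
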