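import Vale.Agent.P017.R3.Gen
import Vale.Agent.P017.R3.H706.RM

/-!
# P017, R3-B4: the random matrix model with a special index

`stmtRMg : StmtLA1 → StmtLA2 → StmtLA3g → StmtRMg` and `stmtRM1 : StmtRM1`.
-/

open Finset

namespace Vale.Agent.P017.R3.H706

open Vale.Agent.P017.R3

section av2

variable {V : Type} [Fintype V] [DecidableEq V]

/-- average over the new row, the new corner and the new special entry -/
noncomputable def av2 (G : ZMod 2 → (V → ZMod 2) → ZMod 2 → ℝ) : ℝ :=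
  (∑ χ : ZMod 2, av (G χ)) / 2

lemma av2_mono {G H : ZMod 2 → (V → ZMod 2) → ZMod 2 → ℝ} (h : ∀ χ φ w, G χ φ w ≤ H χ φ w) :
    av2 G ≤ av2 H := by
  unfold av2
  apply div_le_div_of_nonneg_right _ (by norm_num)
  exact sum_le_sum fun χ _ => av_mono (h χ)

lemma av2_const (c : ℝ) : av2 (fun _ (_ : V → ZMod 2) _ => c) = c := by
  unfold av2
  simp only [av_const]
  rw [sum_const, card_univ, ZMod.card, nsmul_eq_mul]
  push_cast
  ring

lemma av2_add (G H : ZMod 2 → (V → ZMod 2) → ZMod 2 → ℝ) :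
    av2 (fun χ φ w => G χ φ w + H χ φ w) = av2 G + av2 H := by
  unfold av2
  simp only [av_add]
  rw [sum_add_distrib, add_div]

lemma av2_smul (c : ℝ) (G : ZMod 2 → (V → ZMod 2) → ZMod 2 → ℝ) :
    av2 (fun χ φ w => c * G χ φ w) = c * av2 G := by
  unfold av2
  simp only [av_smul]
  rw [← mul_sum, mul_div_assoc]

lemma av2_le {G : ZMod 2 → (V → ZMod 2) → ZMod 2 → ℝ} {c : ℝ} (h : ∀ χ, av (G χ) ≤ c) :
    av2 G ≤ c := by
  unfold av2
  have : ∑ χ : ZMod 2, av (G χ) ≤ ∑ _χ : ZMod 2, c := sum_le_sum fun χ _ => h χ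
  rw [sum_const, card_univ, ZMod.card, nsmul_eq_mul] at this
  push_cast at this
  linarith

lemma av2_eq {G : ZMod 2 → (V → ZMod 2) → ZMod 2 → ℝ} {c : ℝ} (h : ∀ χ, av (G χ) = c) :
    av2 G = c := by
  unfold av2
  have : ∑ χ : ZMod 2, av (G χ) = ∑ _χ : ZMod 2, c := sum_congr rfl fun χ _ => h χ
  rw [this, sum_const, card_univ, ZMod.card, nsmul_eq_mul]
  push_cast
  ring

omit [Fintype V] [DecidableEq V] in
lemma rec2_ext {M : Matrix V V (ZMod 2)} {μ st : V → ZMod 2} (h : Rec2 M μ st) (φ : V → ZMod 2)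
    (e χ w : ZMod 2) :
    Rec2 (ext M φ (φ + (e • μ + χ • st)) w) (extv μ e) (extv st 0) := by
  have h2 : ∀ x : ZMod 2, x + x = 0 := by decide
  refine ⟨?_, ?_, ?_⟩
  · intro a b hab ha hb
    match a, b, hab, ha, hb with
    | some q, some q', hab, ha, hb => exact h.recip q q' (fun h' => hab (by rw [h'])) ha hb
    | some q, none, _, ha, _ =>
      have hq : st q = 0 := ha
      show φ q + (φ + (e • μ + χ • st)) q = μ q * e
      rw [Pi.add_apply, Pi.add_apply, Pi.smul_apply, Pi.smul_apply, smul_eq_mul, smul_eq_mul, hq,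
        mul_zero, add_zero, ← add_assoc, h2, zero_add, mul_comm]
    | none, some q', _, _, hb =>
      have hq : st q' = 0 := hb
      show (φ + (e • μ + χ • st)) q' + φ q' = e * μ q'
      rw [Pi.add_apply, Pi.add_apply, Pi.smul_apply, Pi.smul_apply, smul_eq_mul, smul_eq_mul, hq,
        mul_zero, add_zero, add_right_comm, h2, zero_add]
    | none, none, hab, _, _ => exact absurd rfl hab
  · intro a b ha hb
    match a, b, ha, hb with
    | some q, some q', ha, hb =>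
      have : q = q' := h.one q q' ha hb
      rw [this]
    | some q, none, _, hb => exact absurd (show (0 : ZMod 2) = 1 from hb) (by decide)
    | none, some q', ha, _ => exact absurd (show (0 : ZMod 2) = 1 from ha) (by decide)
    | none, none, _, _ => rfl
  · intro a ha
    match a, ha with
    | some q, ha => exact h.zero q ha
    | none, ha => exact absurd (show (0 : ZMod 2) = 1 from ha) (by decide)

lemma prob2_cons (e : ZMod 2) (ε : List (ZMod 2)) (M : Matrix V V (ZMod 2)) (μ st : V → ZMod 2) :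
    prob2 (e :: ε) V M μ st = av2 (fun χ φ w =>
      prob2 ε (Option V) (ext M φ (φ + (e • μ + χ • st)) w) (extv μ e) (extv st 0)) := by
  show (∑ φ : V → ZMod 2, ∑ w : ZMod 2, ∑ χ : ZMod 2,
      prob2 ε (Option V) (ext M φ (φ + (e • μ + χ • st)) w) (extv μ e) (extv st 0)) /
      2 ^ (Fintype.card V + 2) = _
  unfold av2 av
  rw [← sum_div, div_div]
  congr 1
  · have e1 : ∀ φ : V → ZMod 2, ∑ w : ZMod 2, ∑ χ : ZMod 2,
      prob2 ε (Option V) (ext M φ (φ + (e • μ + χ • st)) w) (extv μ e) (extv st 0) =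
      ∑ χ : ZMod 2, ∑ w : ZMod 2,
      prob2 ε (Option V) (ext M φ (φ + (e • μ + χ • st)) w) (extv μ e) (extv st 0) :=
      fun φ => sum_comm
    simp only [e1]
    exact sum_comm

lemma av2_ck (h2 : StmtLA2) (M : Matrix V V (ZMod 2)) (ν : ZMod 2 → V → ZMod 2) :
    av2 (fun χ φ w => (2 : ℝ) ^ ck (ext M φ (φ + ν χ) w)) ≤ (2 : ℝ) ^ ck M / 2 + 1 :=
  av2_le fun χ => av_ck h2 M (ν χ)

lemma av2_sp (h3 : StmtLA3g) {M : Matrix V V (ZMod 2)} {μ st : V → ZMod 2} (h : Rec2 M μ st)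
    (e : ZMod 2) :
    av2 (fun χ φ w => (sp (ext M φ (φ + (e • μ + χ • st)) w) : ℝ)) ≤
      (sp M : ℝ) / 2 + (1 / 2 : ℝ) ^ nn μ := by
  apply av2_le
  intro χ
  unfold av nn
  rw [div_le_iff₀ (by positivity)]
  have := h3 V M μ st e χ h
  linarith

lemma av2_f (h1 : StmtLA1) {M : Matrix V V (ZMod 2)} (ν : ZMod 2 → V → ZMod 2) (hs : sp M = 0)
    (k : ℕ) : av2 (fun χ φ w => f k (ck (ext M φ (φ + ν χ) w))) = f (k + 1) (ck M) :=
  av2_eq fun χ => av_f h1 (ν χ) hs k

end av2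

lemma prob2_nonneg : ∀ (ε : List (ZMod 2)) (V : Type) [Fintype V] [DecidableEq V]
    (M : Matrix V V (ZMod 2)) (μ st : V → ZMod 2), 0 ≤ prob2 ε V M μ st
  | [], V, _, _, M, μ, st => by
    unfold prob2
    split_ifs <;> norm_num
  | e :: ε, V, _, _, M, μ, st => by
    rw [prob2_cons]
    have := av2_mono (V := V) (G := fun _ _ _ => 0)
      (H := fun χ φ w => prob2 ε (Option V) (ext M φ (φ + (e • μ + χ • st)) w) (extv μ e)
        (extv st 0))
      (fun χ φ w => prob2_nonneg ε (Option V) _ _ _)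
    rwa [av2_const] at this

/-- the last steps -/
lemma prob2_ge (h1 : StmtLA1) (h3 : StmtLA3g) : ∀ (ε : List (ZMod 2)) (V : Type) [Fintype V]
    [DecidableEq V] (M : Matrix V V (ZMod 2)) (μ st : V → ZMod 2), Rec2 M μ st →
    f ε.length (ck M) - 2 * sp M - 2 * ε.length * (1 / 2 : ℝ) ^ nn μ ≤ prob2 ε V M μ st
  | [], V, _, _, M, μ, st, h => by
    unfold prob2 f
    have hs : (0 : ℝ) ≤ sp M := Nat.cast_nonneg _
    by_cases hc : ck M = 0
    · rw [if_pos hc, hc]
      simp only [List.length_nil, le_refl, if_true, Nat.sub_self, Q_zero]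
      simp only [Nat.cast_zero, mul_zero, zero_mul]
      linarith
    · rw [if_neg hc, if_neg (by simp only [List.length_nil]; omega)]
      simp only [List.length_nil, Nat.cast_zero, mul_zero, zero_mul]
      linarith
  | e :: ε, V, _, _, M, μ, st, h => by
    rcases Nat.eq_zero_or_pos (sp M) with hs | hs
    · rw [prob2_cons]
      have hm := av2_mono (V := V)
        (G := fun χ φ w => f ε.length (ck (ext M φ (φ + (e • μ + χ • st)) w)) +
          (-2 * (sp (ext M φ (φ + (e • μ + χ • st)) w) : ℝ) +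
            -(2 * ε.length * (1 / 2 : ℝ) ^ nn (extv μ e))))
        (H := fun χ φ w => prob2 ε (Option V) (ext M φ (φ + (e • μ + χ • st)) w) (extv μ e)
          (extv st 0))
        (fun χ φ w => by
          have := prob2_ge h1 h3 ε (Option V) _ _ _ (rec2_ext h φ e χ w)
          linarith)
      rw [av2_add, av2_add, av2_smul, av2_const, av2_f h1 (fun χ => e • μ + χ • st) hs] at hm
      have hsp := av2_sp h3 h e
      rw [hs] at hsp ⊢
      have hn : (1 / 2 : ℝ) ^ nn (extv μ e) ≤ (1 / 2 : ℝ) ^ nn μ := by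
        apply pow_le_pow_of_le_one (by norm_num) (by norm_num)
        rw [nn_extv]
        omega
      have hl : (0 : ℝ) ≤ 2 * ε.length := by positivity
      have := mul_le_mul_of_nonneg_left hn hl
      simp only [List.length_cons]
      push_cast at hsp ⊢
      linarith
    · have hf := f_le_one (e :: ε).length (ck M)
      have hp := prob2_nonneg (e :: ε) V M μ st
      have hs' : (1 : ℝ) ≤ sp M := by exact_mod_cast hs
      have : (0 : ℝ) ≤ 2 * (e :: ε).length * (1 / 2 : ℝ) ^ nn μ := by positivity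
      linarith

/-- all steps -/
lemma prob2_app (h2 : StmtLA2) (h3 : StmtLA3g) (ε₂ : List (ZMod 2)) (a A₁ A₂ A₃ : ℝ)
    (hA₁ : 0 ≤ A₁) (hA₂ : 0 ≤ A₂)
    (H : ∀ (V : Type) [Fintype V] [DecidableEq V] (M : Matrix V V (ZMod 2)) (μ st : V → ZMod 2),
      Rec2 M μ st →
      a - A₁ * (2 : ℝ) ^ ck M - A₂ * sp M - A₃ * (1 / 2 : ℝ) ^ nn μ ≤ prob2 ε₂ V M μ st) :
    ∀ (ε : List (ZMod 2)) (V : Type) [Fintype V]
    [DecidableEq V] (M : Matrix V V (ZMod 2)) (μ st : V → ZMod 2), Rec2 M μ st →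
    a - A₁ * (2 + ((2 : ℝ) ^ ck M - 2) / 2 ^ ε.length) -
      A₂ * ((sp M : ℝ) / 2 ^ ε.length + D ε (nn μ)) - A₃ * (1 / 2 : ℝ) ^ (ε.count 1 + nn μ) ≤
      prob2 (ε ++ ε₂) V M μ st
  | [], V, _, _, M, μ, st, h => by
    have := H V M μ st h
    simp only [List.length_nil, pow_zero, div_one, D, add_zero, List.count_nil, zero_add,
      List.nil_append, add_sub_cancel]
    exact this
  | e :: ε, V, _, _, M, μ, st, h => by
    have hc : ε.count 1 + (nn μ + if e = 1 then 1 else 0) = (e :: ε).count 1 + nn μ := by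
      rw [List.count_cons]
      by_cases he : e = 1
      · simp [he]; omega
      · simp [he]
    rw [List.cons_append, prob2_cons]
    have hm := av2_mono (V := V)
      (G := fun χ φ w => -(A₁ / 2 ^ ε.length) *
          (2 : ℝ) ^ ck (ext M φ (φ + (e • μ + χ • st)) w) +
        (-(A₂ / 2 ^ ε.length) * (sp (ext M φ (φ + (e • μ + χ • st)) w) : ℝ) +
          (a - A₁ * (2 - 2 / 2 ^ ε.length) - A₂ * D ε (nn (extv μ e)) -
            A₃ * (1 / 2 : ℝ) ^ (ε.count 1 + nn (extv μ e)))))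
      (H := fun χ φ w => prob2 (ε ++ ε₂) (Option V) (ext M φ (φ + (e • μ + χ • st)) w)
        (extv μ e) (extv st 0))
      (fun χ φ w => by
        have := prob2_app h2 h3 ε₂ a A₁ A₂ A₃ hA₁ hA₂ H ε (Option V) _ _ _ (rec2_ext h φ e χ w)
        refine le_trans (le_of_eq ?_) this
        ring)
    rw [av2_add, av2_add, av2_smul, av2_smul, av2_const, nn_extv, hc] at hm
    have hck := av2_ck h2 M (fun χ => e • μ + χ • st)
    have hsp := av2_sp h3 h e
    have g1 : 0 ≤ A₁ / 2 ^ ε.length := by positivity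
    have g2 : 0 ≤ A₂ / 2 ^ ε.length := by positivity
    have k1 := mul_le_mul_of_nonneg_left hck g1
    have k2 := mul_le_mul_of_nonneg_left hsp g2
    have hD : D (e :: ε) (nn μ) = (1 / 2 : ℝ) ^ nn μ / 2 ^ ε.length +
      D ε (nn μ + if e = 1 then 1 else 0) := rfl
    rw [hD, List.length_cons, pow_succ]
    have t1 : A₁ * (2 + ((2 : ℝ) ^ ck M - 2) / (2 ^ ε.length * 2)) =
        A₁ / 2 ^ ε.length * ((2 : ℝ) ^ ck M / 2 + 1) + A₁ * (2 - 2 / 2 ^ ε.length) := by
      field_simp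
      ring
    have t2 : A₂ * ((sp M : ℝ) / (2 ^ ε.length * 2) + ((1 / 2 : ℝ) ^ nn μ / 2 ^ ε.length +
        D ε (nn μ + if e = 1 then 1 else 0))) =
        A₂ / 2 ^ ε.length * ((sp M : ℝ) / 2 + (1 / 2 : ℝ) ^ nn μ) +
          A₂ * D ε (nn μ + if e = 1 then 1 else 0) := by
      field_simp
      ring
    rw [t1, t2]
    linarith

section avW

variable {W : Type} [Fintype W]

/-- average over a finite type -/
noncomputable def avW (G : W → ℝ) : ℝ := (∑ u, G u) / Fintype.card W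

lemma avW_mono {G H : W → ℝ} (h : ∀ u, G u ≤ H u) : avW G ≤ avW H := by
  unfold avW
  apply div_le_div_of_nonneg_right _ (by positivity)
  exact sum_le_sum fun u _ => h u

lemma avW_const [Nonempty W] (c : ℝ) : avW (fun (_ : W) => c) = c := by
  unfold avW
  rw [sum_const, card_univ, nsmul_eq_mul]
  have : (Fintype.card W : ℝ) ≠ 0 := by exact_mod_cast Fintype.card_ne_zero
  field_simp

lemma avW_add (G H : W → ℝ) : avW (fun u => G u + H u) = avW G + avW H := by
  unfold avW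
  simp only [sum_add_distrib]
  rw [add_div]

lemma avW_smul (c : ℝ) (G : W → ℝ) : avW (fun u => c * G u) = c * avW G := by
  unfold avW
  simp only [← mul_sum]
  rw [mul_div_assoc]

end avW

theorem stmtRMg (h1 : StmtLA1) (h2 : StmtLA2) (h3 : StmtLA3g) : StmtRMg := by
  intro η B hη
  rcases le_or_gt η 0 with h0 | h0
  · refine ⟨0, 0, ?_⟩
    intro ε V W _ _ _ _ A μ st _ _ _
    have := avW_mono (W := W) (G := fun _ => 0)
      (H := fun u => prob2 ε V (A u) μ st) (fun u => prob2_nonneg ε V _ _ _)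
    rw [avW_const] at this
    exact h0.trans this
  have he : 0 < eta := h0.trans hη
  set s := eta - η with hs
  have hspos : 0 < s := by rw [hs]; linarith
  obtain ⟨C, hC⟩ : ∃ n : ℕ, (1 / 2 : ℝ) ^ n < s / (4 * (2 + |B|)) :=
    exists_pow_lt_of_lt_one (by positivity) (by norm_num)
  have hC' : (1 / 2 : ℝ) ^ C * (2 + |B|) ≤ s / 4 := by
    rw [lt_div_iff₀ (by positivity)] at hC
    linarith
  obtain ⟨k, hkC, hk⟩ : ∃ k : ℕ, C ≤ k ∧ (η + eta) / 2 ≤ Q k ^ 2 / Q (k - C) := by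
    have hlt : (η + eta) / 2 < eta := by linarith
    have ev := ((Q_quot_tendsto he C).eventually (eventually_ge_nhds hlt)).and
      (Filter.eventually_ge_atTop C)
    obtain ⟨k, h, h'⟩ := ev.exists
    exact ⟨k, h', h⟩
  have ha1 : (η + eta) / 2 ≤ 1 := by
    have := eta_le_one
    linarith
  obtain ⟨m, hm⟩ : ∃ n : ℕ, (3 / 4 : ℝ) ^ n < s / (4 * (2 * |B| + 8 + 2 * k)) :=
    exists_pow_lt_of_lt_one (by positivity) (by norm_num)
  have hm' : (3 / 4 : ℝ) ^ (m + 1) * (2 * |B| + 8 + 2 * k) ≤ s / 4 := by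
    rw [lt_div_iff₀ (by positivity)] at hm
    have : (3 / 4 : ℝ) ^ (m + 1) ≤ (3 / 4 : ℝ) ^ m :=
      pow_le_pow_of_le_one (by norm_num) (by norm_num) (Nat.le_succ m)
    have h4 := mul_le_mul_of_nonneg_right this
      (show (0 : ℝ) ≤ 2 * |B| + 8 + 2 * k by positivity)
    linarith
  refine ⟨m + 1, k, ?_⟩
  intro ε V W _ _ _ _ A μ st hrec hcount hB
  set ε₁ := ε.take (ε.length - k) with hε₁
  set ε₂ := ε.drop (ε.length - k) with hε₂
  have hsplit : ε₁ ++ ε₂ = ε := List.take_append_drop _ _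
  have hlen1 : ε₁.count 1 ≤ ε₁.length := List.count_le_length
  have hlen1' : ε₁.length ≤ ε.length - k := List.length_take_le _ _
  have hlen2 : ε₂.length = k := by
    rw [hε₂, List.length_drop]
    omega
  have H : ∀ (V : Type) [Fintype V] [DecidableEq V] (M : Matrix V V (ZMod 2))
      (μ st : V → ZMod 2), Rec2 M μ st →
      (η + eta) / 2 - (1 / 2 : ℝ) ^ C * (2 : ℝ) ^ ck M - 2 * sp M -
        (2 * k) * (1 / 2 : ℝ) ^ nn μ ≤ prob2 ε₂ V M μ st := by
    intro V _ _ M μ st hM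
    have := prob2_ge h1 h3 ε₂ V M μ st hM
    rw [hlen2] at this
    have hf : (η + eta) / 2 - (1 / 2 : ℝ) ^ C * (2 : ℝ) ^ ck M ≤ f k (ck M) := by
      rcases Nat.lt_or_ge C (ck M) with hc | hc
      · have g1 := f_nonneg k (ck M)
        have g2 : (1 : ℝ) ≤ (1 / 2 : ℝ) ^ C * (2 : ℝ) ^ ck M := by
          calc (1 : ℝ) = (1 / 2 : ℝ) ^ C * (2 : ℝ) ^ C := by rw [← mul_pow]; norm_num
            _ ≤ (1 / 2 : ℝ) ^ C * (2 : ℝ) ^ ck M :=
              mul_le_mul_of_nonneg_left (pow_le_pow_right₀ (by norm_num) hc.le) (by positivity)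
        linarith
      · have g1 := hk.trans (f_ge hc hkC)
        have g2 : (0 : ℝ) ≤ (1 / 2 : ℝ) ^ C * (2 : ℝ) ^ ck M := by positivity
        linarith
    linarith
  have key : ∀ u : W,
      ((η + eta) / 2 - (1 / 2 : ℝ) ^ C * 2 - (8 + 2 * k) * (3 / 4 : ℝ) ^ (m + 1)) +
        (-((1 / 2 : ℝ) ^ C + 2 * (3 / 4 : ℝ) ^ (m + 1))) * (2 : ℝ) ^ ck (A u) ≤
      prob2 ε V (A u) μ st := by
    intro u
    have hp := prob2_app h2 h3 ε₂ ((η + eta) / 2) ((1 / 2 : ℝ) ^ C) 2 (2 * k) (by positivity)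
      (by norm_num) H ε₁ V (A u) μ st (hrec u)
    rw [hsplit] at hp
    have hD := D_le ε₁ (nn μ)
    have hsp := sp_le (A u)
    set K : ℝ := (2 : ℝ) ^ ck (A u) with hK
    have hKpos : 0 < K := by positivity
    have p1 : (3 / 4 : ℝ) ^ (ε₁.count 1 + nn μ) ≤ (3 / 4 : ℝ) ^ (m + 1) :=
      pow_le_pow_of_le_one (by norm_num) (by norm_num) (by omega)
    have p2 : (1 / 2 : ℝ) ^ (ε₁.count 1 + nn μ) ≤ (3 / 4 : ℝ) ^ (m + 1) :=
      (pow_le_pow_left₀ (by norm_num) (by norm_num) _).trans p1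
    have p3 : (1 : ℝ) / 2 ^ ε₁.length ≤ (3 / 4 : ℝ) ^ (m + 1) := by
      rw [← one_div_pow]
      calc (1 / 2 : ℝ) ^ ε₁.length ≤ (1 / 2 : ℝ) ^ (m + 1) :=
            pow_le_pow_of_le_one (by norm_num) (by norm_num) (by omega)
        _ ≤ _ := pow_le_pow_left₀ (by norm_num) (by norm_num) _
    have p4 : (1 : ℝ) / 2 ^ ε₁.length ≤ 1 := by
      rw [← one_div_pow]
      exact pow_le_one₀ (by norm_num) (by norm_num)
    have p5 : (0 : ℝ) ≤ 1 / 2 ^ ε₁.length := by positivity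
    have q1 : (K - 2) / 2 ^ ε₁.length ≤ K := by
      rw [div_eq_mul_one_div]
      nlinarith
    have q2 : (sp (A u) : ℝ) / 2 ^ ε₁.length ≤ K * (3 / 4 : ℝ) ^ (m + 1) := by
      rw [div_eq_mul_one_div]
      exact mul_le_mul hsp p3 p5 hKpos.le
    have q3 : D ε₁ (nn μ) ≤ 4 * (3 / 4 : ℝ) ^ (m + 1) := by
      have r1 : (4 - 4 * (2 / 3 : ℝ) ^ ε₁.length) ≤ 4 := by
        have : (0 : ℝ) ≤ (2 / 3 : ℝ) ^ ε₁.length := by positivity
        linarith
      have r2 : (0 : ℝ) ≤ (3 / 4 : ℝ) ^ (ε₁.count 1 + nn μ) := by positivity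
      calc D ε₁ (nn μ) ≤ _ := hD
        _ ≤ 4 * (3 / 4 : ℝ) ^ (ε₁.count 1 + nn μ) := mul_le_mul_of_nonneg_right r1 r2
        _ ≤ _ := by linarith
    have q4 : (2 * k : ℝ) * (1 / 2 : ℝ) ^ (ε₁.count 1 + nn μ) ≤ 2 * k * (3 / 4 : ℝ) ^ (m + 1) :=
      mul_le_mul_of_nonneg_left p2 (by positivity)
    have q5 : (1 / 2 : ℝ) ^ C * (2 + (K - 2) / 2 ^ ε₁.length) ≤ (1 / 2 : ℝ) ^ C * (2 + K) :=
      mul_le_mul_of_nonneg_left (by linarith) (by positivity)
    linarith
  have hav := avW_mono key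
  rw [avW_add, avW_const, avW_smul] at hav
  have hcoef : (0 : ℝ) ≤ (1 / 2 : ℝ) ^ C + 2 * (3 / 4 : ℝ) ^ (m + 1) := by positivity
  have hB' : avW (fun u : W => (2 : ℝ) ^ ck (A u)) ≤ |B| := hB.trans (le_abs_self B)
  have := mul_le_mul_of_nonneg_left hB' hcoef
  show η ≤ avW (fun u => prob2 ε V (A u) μ st)
  linarith

/-! ### The case without special index -/

lemma extv_zero {V : Type} : extv (0 : V → ZMod 2) 0 = 0 := by
  funext a
  match a with
  | some _ => rfl
  | none => rfl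

lemma prob2_zero : ∀ (ε : List (ZMod 2)) (V : Type) [Fintype V] [DecidableEq V]
    (M : Matrix V V (ZMod 2)) (μ : V → ZMod 2), prob2 ε V M μ 0 = prob ε V M μ
  | [], V, _, _, M, μ => rfl
  | e :: ε, V, _, _, M, μ => by
    rw [prob2_cons, prob_cons]
    apply av2_eq
    intro χ
    congr 1
    funext φ w
    rw [extv_zero, smul_zero, add_zero]
    exact prob2_zero ε (Option V) _ _

theorem stmtRM1 : StmtRM1 := by
  intro h η B hη
  obtain ⟨m, k, H⟩ := h η B hη
  refine ⟨m, k, ?_⟩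
  intro ε V _ _ A μ hA hc hB
  have hcard : (Fintype.card (V → ZMod 2) : ℝ) = 2 ^ Fintype.card V := by
    rw [Fintype.card_fun, ZMod.card]
    push_cast
    rfl
  have := H ε V (V → ZMod 2) (fun u => A + Matrix.diagonal u) μ 0
    (fun u => ⟨fun a b hab _ _ => rec_diag hA u a b hab,
      fun a _ ha => absurd (show (0 : ZMod 2) = 1 from ha) (by decide),
      fun a ha => absurd (show (0 : ZMod 2) = 1 from ha) (by decide)⟩) hc
    (by rw [hcard]; exact hB)
  rw [hcard] at this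
  simp only [prob2_zero] at this
  exact this

end Vale.Agent.P017.R3.H706
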